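import Vale.Agent.P307.Transfer

open Cardinal FirstOrder FirstOrder.Language

universe u

namespace Vale.Agent.Results.P307.MonadicCategoricity

open Vale.Agent.P307

/-- Shelah's eventual categoricity conjecture holds, with `mu(lam) = (2 ^ lam)^+`, for every
abstract elementary class whose vocabulary consists of unary relation symbols only. -/
theorem result (lam : Cardinal.{u}) (_hlam : ℵ₀ ≤ lam) :
    ∃ mu : Cardinal.{u}, lam ≤ mu ∧ mu = Order.succ (2 ^ lam) ∧
      ∀ (L : FirstOrder.Language.{u, u}), IsMonadic L → ∀ K : AEC L, K.LS ≤ lam →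
        (∃ κ, mu ≤ κ ∧ K.Categorical κ) → ∀ κ', mu ≤ κ' → K.Categorical κ' := by
  refine ⟨Order.succ (2 ^ lam), ?_, rfl, ?_⟩
  · exact (Cardinal.cantor lam).le.trans (Order.le_succ _)
  · rintro L hL K hK ⟨κ, hκ, hcat⟩ κ' hκ'
    exact transfer hL K (K.isLSBound_of_LS_le hK) (Order.succ_le_iff.1 hκ)
      (Order.succ_le_iff.1 hκ') hcat

end Vale.Agent.Results.P307.MonadicCategoricity
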